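import Vale.Agent.P033.Par

/-! P033: no four distinct shifts of the first row have a constant product. -/

namespace Vale.Agent.P033

open Finset

variable {n : ℕ} [NeZero n] {h : ZMod n → ℤ}

theorem corr (hc : ∀ t : ZMod n, t ≠ 0 → ∑ j, h j * h (j + t) = 0) {x y : ZMod n} (xy : x ≠ y) :
    ∑ i, h (i + x) * h (i + y) = 0 := by
  have e := hc (y - x) (sub_ne_zero.2 (Ne.symm xy))
  have e' := Equiv.sum_comp (Equiv.addRight x) (fun j => h j * h (j + (y - x)))
  rw [← e, ← e']
  refine Finset.sum_congr rfl fun i _ => ?_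
  simp only [Equiv.coe_addRight]
  congr 2
  ring

theorem four {m : ℕ} (hn : n = 4 * m) (hm : Odd m) (h4 : 4 < n) (hs : ∀ i, h i = 1 ∨ h i = -1)
    (hc : ∀ t : ZMod n, t ≠ 0 → ∑ j, h j * h (j + t) = 0) {a b c d : ZMod n}
    (ab : a ≠ b) (ac : a ≠ c) (bc : b ≠ c) (σ : ℤ)
    (hp : ∀ i, h (i + a) * h (i + b) * h (i + c) * h (i + d) = σ) : False := by
  classical
  have hsq := sq_one hs
  have hw : ∃ w : ZMod n, w ∉ ({a, b, c, d} : Finset (ZMod n)) := by
    by_contra hcon
    push Not at hcon
    have h1 : (univ : Finset (ZMod n)) ⊆ {a, b, c, d} := fun w _ => hcon w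
    have h2 := (Finset.card_le_card h1).trans Finset.card_le_four
    rw [Finset.card_univ, ZMod.card] at h2
    omega
  obtain ⟨w, hw⟩ := hw
  simp only [Finset.mem_insert, Finset.mem_singleton, not_or] at hw
  obtain ⟨wa, wb, wc, wd⟩ := hw
  set P : Finset (ZMod n) := univ.filter
    (fun i => h (i + a) * h (i + b) = 1 ∧ h (i + a) * h (i + c) = 1) with hP
  have hsum : ∀ f : ZMod n → ℤ,
      ∑ i, f i * ((1 + h (i + a) * h (i + b)) * (1 + h (i + a) * h (i + c))) =
        4 * ∑ i ∈ P, f i := by
    intro f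
    rw [hP, Finset.sum_filter, Finset.mul_sum]
    refine Finset.sum_congr rfl fun i _ => ?_
    rcases hs (i + a) with e | e <;> rcases hs (i + b) with e' | e' <;>
      rcases hs (i + c) with e'' | e'' <;> rw [e, e', e''] <;> norm_num <;> ring
  have hcard : P.card = m := by
    have e := hsum (fun _ => 1)
    have e1 : ∑ i, (1 : ℤ) * ((1 + h (i + a) * h (i + b)) * (1 + h (i + a) * h (i + c))) =
        ∑ i : ZMod n, (1 : ℤ) + ∑ i, h (i + a) * h (i + b) + ∑ i, h (i + a) * h (i + c) +
          ∑ i, h (i + b) * h (i + c) := by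
      rw [← Finset.sum_add_distrib, ← Finset.sum_add_distrib, ← Finset.sum_add_distrib]
      refine Finset.sum_congr rfl fun i _ => ?_
      linear_combination (h (i + b) * h (i + c)) * hsq (i + a)
    rw [e1, corr hc ab, corr hc ac, corr hc bc] at e
    simp only [Finset.sum_const, Finset.card_univ, ZMod.card, nsmul_eq_mul, mul_one,
      add_zero] at e
    have hn' : (n : ℤ) = 4 * m := by exact_mod_cast hn
    omega
  have hzero : ∑ i ∈ P, h (i + a) * h (i + w) = 0 := by
    have e := hsum (fun i => h (i + a) * h (i + w))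
    have e1 : ∑ i, h (i + a) * h (i + w) *
          ((1 + h (i + a) * h (i + b)) * (1 + h (i + a) * h (i + c))) =
        ∑ i, h (i + w) * h (i + a) + ∑ i, h (i + w) * h (i + b) + ∑ i, h (i + w) * h (i + c) +
          σ * ∑ i, h (i + w) * h (i + d) := by
      rw [Finset.mul_sum, ← Finset.sum_add_distrib, ← Finset.sum_add_distrib,
        ← Finset.sum_add_distrib]
      refine Finset.sum_congr rfl fun i _ => ?_
      have h1 := hsq (i + a)
      have h2 := hsq (i + d)
      rw [← hp i]
      linear_combination (h (i + w) * h (i + b) + h (i + w) * h (i + c) +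
        h (i + w) * h (i + a) * h (i + b) * h (i + c)) * h1 -
        (h (i + a) * h (i + b) * h (i + c) * h (i + w)) * h2
    rw [e1, corr hc wa, corr hc wb, corr hc wc, corr hc wd] at e
    linarith
  have e1 : ∑ i ∈ P, (1 - h (i + a) * h (i + w)) =
      2 * ((P.filter (fun i => h (i + a) * h (i + w) = -1)).card : ℤ) := by
    rw [Finset.card_filter]
    push_cast
    rw [Finset.mul_sum]
    refine Finset.sum_congr rfl fun i _ => ?_
    rcases hs (i + a) with e | e <;> rcases hs (i + w) with e' | e' <;> rw [e, e'] <;> norm_num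
  rw [Finset.sum_sub_distrib, hzero, Finset.sum_const, hcard] at e1
  simp only [nsmul_eq_mul, mul_one, sub_zero] at e1
  obtain ⟨k, hk⟩ := hm
  omega

theorem four_signs {m : ℕ} (hn : n = 4 * m) (hm : Odd m) (h4 : 4 < n)
    (H : IsCirculantHadamard n h) {a b c d : ZMod n} (ab : a ≠ b) (ac : a ≠ c) (bc : b ≠ c) :
    (∃ i, h (i + a) * h (i + b) * h (i + c) * h (i + d) = 1) ∧
      ∃ i, h (i + a) * h (i + b) * h (i + c) * h (i + d) = -1 := by
  have hv : ∀ i, h (i + a) * h (i + b) * h (i + c) * h (i + d) = 1 ∨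
      h (i + a) * h (i + b) * h (i + c) * h (i + d) = -1 := by
    intro i
    rcases H.1 (i + a) with e | e <;> rcases H.1 (i + b) with e' | e' <;>
      rcases H.1 (i + c) with f | f <;> rcases H.1 (i + d) with f' | f' <;>
      rw [e, e', f, f'] <;> norm_num
  constructor
  · by_contra hcon
    push Not at hcon
    exact four hn hm h4 H.1 (fun t ht => autocorr H ht) ab ac bc (-1)
      fun i => (hv i).resolve_left (hcon i)
  · by_contra hcon
    push Not at hcon
    exact four hn hm h4 H.1 (fun t ht => autocorr H ht) ab ac bc 1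
      fun i => (hv i).resolve_right (hcon i)

end Vale.Agent.P033
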