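import Mathlib

/-! P033: a combinatorial restriction on first rows of circulant Hadamard matrices. -/

namespace Vale.Agent.P033

open Finset

/-- the circulant matrix with first row `h`, i.e. with entries `h (j - i)` -/
def circ {n : ℕ} (h : ZMod n → ℤ) : Matrix (ZMod n) (ZMod n) ℤ := Matrix.of fun i j => h (j - i)

/-- `h` is the first row of a circulant Hadamard matrix of order `n` -/
def IsCirculantHadamard (n : ℕ) [NeZero n] (h : ZMod n → ℤ) : Prop :=
  (∀ i, h i = 1 ∨ h i = -1) ∧ circ h * (circ h).transpose = (n : ℤ) • (1 : Matrix _ _ ℤ)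

variable {n : ℕ} [NeZero n] {h : ZMod n → ℤ}

theorem autocorr (H : IsCirculantHadamard n h) {t : ZMod n} (ht : t ≠ 0) :
    ∑ j, h j * h (j + t) = 0 := by
  have e := congrFun (congrFun H.2 0) (-t)
  rw [Matrix.mul_apply] at e
  have h1 : ((n : ℤ) • (1 : Matrix (ZMod n) (ZMod n) ℤ)) 0 (-t) = 0 := by
    rw [Matrix.smul_apply, Matrix.one_apply_ne (by simpa [eq_comm] using ht)]
    simp
  rw [h1] at e
  rw [← e]
  refine Finset.sum_congr rfl fun j _ => ?_
  simp [circ]

theorem sq_one (hs : ∀ i, h i = 1 ∨ h i = -1) (i : ZMod n) : h i * h i = 1 := by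
  rcases hs i with e | e <;> rw [e] <;> norm_num

theorem key {m : ℕ} (hn : n = 4 * m) (hm : Odd m) (hs : ∀ i, h i = 1 ∨ h i = -1)
    (hc : ∀ t : ZMod n, t ≠ 0 → ∑ j, h j * h (j + t) = 0) {s t : ZMod n} (s0 : s ≠ 0)
    (t0 : t ≠ 0) (st : s + t ≠ 0)
    (hp : ∀ i, h i * h (i + t) = h (i + s) * h (i + s + t)) : False := by
  classical
  have hsq := sq_one hs
  set P : Finset (ZMod n) := univ.filter (fun i => h i * h (i + t) = 1) with hP
  have hε : ∀ i, h i * h (i + t) = 1 ∨ h i * h (i + t) = -1 := by
    intro i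
    rcases hs i with e | e <;> rcases hs (i + t) with e' | e' <;> rw [e, e'] <;> norm_num
  have hb : ∀ i, h i * h (i + s) = 1 ∨ h i * h (i + s) = -1 := by
    intro i
    rcases hs i with e | e <;> rcases hs (i + s) with e' | e' <;> rw [e, e'] <;> norm_num
  -- sums over P
  have hsum : ∀ f : ZMod n → ℤ, ∑ i, f i * (1 + h i * h (i + t)) = 2 * ∑ i ∈ P, f i := by
    intro f
    rw [hP, Finset.sum_filter, Finset.mul_sum]
    refine Finset.sum_congr rfl fun i _ => ?_
    rcases hε i with e | e
    · rw [e, if_pos rfl]; ring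
    · rw [e, if_neg (by norm_num)]; ring
  have hcard : P.card = 2 * m := by
    have e := hsum (fun _ => 1)
    simp only [one_mul, Finset.sum_add_distrib, hc t t0, Finset.sum_const, Finset.card_univ,
      ZMod.card, nsmul_eq_mul, mul_one, add_zero] at e
    have hn' : (n : ℤ) = 4 * m := by exact_mod_cast hn
    omega
  have hbsum : ∑ i ∈ P, h i * h (i + s) = 0 := by
    have e := hsum (fun i => h i * h (i + s))
    have e1 : ∑ i, h i * h (i + s) * (1 + h i * h (i + t)) =
        ∑ i, h i * h (i + s) + ∑ i, h i * h (i + (s + t)) := by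
      rw [← Finset.sum_add_distrib]
      refine Finset.sum_congr rfl fun i _ => ?_
      have h1 : h i * h (i + s) * (h i * h (i + t)) = h i * h (i + (s + t)) := by
        rw [hp i]
        have := hsq (i + s)
        calc h i * h (i + s) * (h (i + s) * h (i + s + t))
            = h i * (h (i + s) * h (i + s)) * h (i + s + t) := by ring
          _ = h i * h (i + (s + t)) := by rw [this, mul_one, add_assoc]
      rw [mul_add, mul_one, h1]
    rw [e1, hc s s0, hc (s + t) st] at e
    linarith
  -- the number of negative terms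
  have hprod : ∏ i ∈ P, (h i * h (i + s)) =
      (-1) ^ (P.filter (fun i => h i * h (i + s) = -1)).card := by
    have e0 : ((-1 : ℤ)) ^ (P.filter (fun i => h i * h (i + s) = -1)).card =
        ∏ i ∈ P.filter (fun i => h i * h (i + s) = -1), (-1 : ℤ) := by
      rw [Finset.prod_const]
    rw [e0, Finset.prod_filter (fun i => h i * h (i + s) = -1) (fun _ => (-1 : ℤ))]
    refine Finset.prod_congr rfl fun i _ => ?_
    rcases hb i with e | e
    · rw [e, if_neg (by norm_num)]
    · rw [e, if_pos rfl]
  have hneg : (P.filter (fun i => h i * h (i + s) = -1)).card = m := by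
    have e1 : ∑ i ∈ P, (1 - h i * h (i + s)) =
        2 * ((P.filter (fun i => h i * h (i + s) = -1)).card : ℤ) := by
      rw [Finset.card_filter]
      push_cast
      rw [Finset.mul_sum]
      refine Finset.sum_congr rfl fun i _ => ?_
      rcases hb i with e | e
      · rw [e, if_neg (by norm_num)]; norm_num
      · rw [e, if_pos rfl]; norm_num
    rw [Finset.sum_sub_distrib, hbsum, Finset.sum_const, hcard] at e1
    simp only [nsmul_eq_mul, mul_one, sub_zero] at e1
    push_cast at e1
    omega
  have hperm : ∏ i ∈ P, h (i + s) = ∏ i ∈ P, h i := by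
    refine Finset.prod_equiv (Equiv.addRight s) ?_ ?_
    · intro i
      simp only [hP, Finset.mem_filter, Finset.mem_univ, true_and, Equiv.coe_addRight]
      rw [hp i]
    · intro i _; rfl
  have hone : (∏ i ∈ P, h i) * ∏ i ∈ P, h i = 1 := by
    rw [← Finset.prod_mul_distrib]
    exact Finset.prod_eq_one fun i _ => hsq i
  rw [Finset.prod_mul_distrib, hperm, hone, hneg, hm.neg_one_pow] at hprod
  norm_num at hprod

theorem exists_neg {m : ℕ} (hn : n = 4 * m) (hm : Odd m) (H : IsCirculantHadamard n h)
    {s t : ZMod n} (s0 : s ≠ 0) (t0 : t ≠ 0) (st : s + t ≠ 0) :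
    ∃ i, h i * h (i + s) * h (i + t) * h (i + s + t) = -1 := by
  by_contra hcon
  push Not at hcon
  refine key hn hm H.1 (fun t ht => autocorr H ht) s0 t0 st fun i => ?_
  have h1 := hcon i
  rcases H.1 i with a | a <;> rcases H.1 (i + s) with b | b <;>
    rcases H.1 (i + t) with c | c <;> rcases H.1 (i + s + t) with d | d <;>
    rw [a, b, c, d] at h1 <;> rw [a, b, c, d] <;> revert h1 <;> norm_num

/-- the row is not a product of two periodic sequences -/
theorem not_product {m : ℕ} (hn : n = 4 * m) (hm : Odd m) (H : IsCirculantHadamard n h)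
    {s t : ZMod n} (s0 : s ≠ 0) (t0 : t ≠ 0) (st : s + t ≠ 0) (f g : ZMod n → ℤ)
    (hf : ∀ i, f (i + s) = f i) (hg : ∀ i, g (i + t) = g i) (hfg : ∀ i, h i = f i * g i) :
    False := by
  obtain ⟨i, hi⟩ := exists_neg hn hm H s0 t0 st
  have e1 : f (i + s + t) = f (i + t) := by
    rw [add_assoc, add_comm s t, ← add_assoc]; exact hf _
  have e2 : g (i + s + t) = g (i + s) := hg _
  rw [hfg i, hfg (i + s), hfg (i + t), hfg (i + s + t), hf, hg, e1, e2] at hi
  have hsq : f i * g i * (f i * g (i + s)) * (f (i + t) * g i) * (f (i + t) * g (i + s)) =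
      (f i * g i * f (i + t) * g (i + s)) ^ 2 := by ring
  rw [hsq] at hi
  nlinarith [sq_nonneg (f i * g i * f (i + t) * g (i + s))]

end Vale.Agent.P033
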